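import Vale.Agent.P105.Salem.Final

/-!
P105: a singular Bernoulli convolution whose parameter is not the reciprocal of a Pisot number.
-/

namespace Vale.Agent.Results.P105.SalemSingular

open MeasureTheory Polynomial

theorem result :
    ∃ lam : ℝ, 1 / 2 < lam ∧ lam < 1 ∧
      (IsIntegral ℤ lam⁻¹ ∧ lam⁻¹ ^ 4 - lam⁻¹ ^ 3 - lam⁻¹ ^ 2 - lam⁻¹ + 1 = 0 ∧
        ∃ z : ℂ, z ≠ ((lam⁻¹ : ℝ) : ℂ) ∧ ‖z‖ = 1 ∧ aeval z (minpoly ℚ lam⁻¹) = 0) ∧
      IsProbabilityMeasure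
        ((Measure.infinitePi fun _ : ℕ =>
            (2⁻¹ : ENNReal) • Measure.dirac true + (2⁻¹ : ENNReal) • Measure.dirac false).map
          fun b : ℕ → Bool => ∑' n, (if b n then (1 : ℝ) else -1) * lam ^ n) ∧
      ∃ S : Set ℝ, MeasurableSet S ∧ volume S = 0 ∧
        ((Measure.infinitePi fun _ : ℕ =>
            (2⁻¹ : ENNReal) • Measure.dirac true + (2⁻¹ : ENNReal) • Measure.dirac false).map
          fun b : ℕ → Bool => ∑' n, (if b n then (1 : ℝ) else -1) * lam ^ n) Sᶜ = 0 := by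
  obtain ⟨h1, h2, -, -, hpoly, -⟩ := Vale.Agent.P105.Salem.algebraStmt
  obtain ⟨s, hsm, hνs, hvs⟩ := Vale.Agent.P105.Salem.nu_singular
  have hb : (0 : ℝ) < Vale.Agent.P105.Salem.beta := by linarith
  refine ⟨Vale.Agent.P105.Salem.beta⁻¹, ?_, inv_lt_one_of_one_lt₀ (by linarith), ?_,
    Vale.Agent.P105.Salem.isProbabilityMeasure_nu, sᶜ, hsm.compl, hvs, ?_⟩
  · rw [lt_inv_comm₀ (by norm_num) hb]
    linarith
  · rw [inv_inv]
    exact ⟨Vale.Agent.P105.Salem.isIntegral_beta, hpoly, Vale.Agent.P105.Salem.exists_conjugate⟩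
  · rw [compl_compl]
    exact hνs

end Vale.Agent.Results.P105.SalemSingular
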